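import Vale.Agent.H24.MatchFinal

/-!
Polynomially bounded ratio of near-perfect to perfect matchings on two classes of (non-bipartite)
graphs: bounded independence number, and Ore type degree sum with constant deficiency.
-/

namespace Vale.Agent.Results.P308.BoundedRatio

open Vale.Agent.H24.Mat

/-- (1) If every independent set of `G` has at most `a` vertices and `G` has a perfect matching then
the number of near-perfect matchings is at most `F n^F` times the number of perfect matchings,
`F = (a+2)^(a+1)`. (2) The same with `F = c+2` if `deg u + deg v ≥ n - c` for all nonadjacent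
distinct `u`, `v`. -/
theorem result :
    (∀ (a : ℕ) (V : Type) [Fintype V] (G : SimpleGraph V),
      (∀ S : Finset V, G.IsIndepSet (S : Set V) → S.card ≤ a) → 0 < numPerfect G →
      numNearPerfect G ≤ (a + 2) ^ (a + 1) * Fintype.card V ^ ((a + 2) ^ (a + 1)) * numPerfect G) ∧
    (∀ (c : ℕ) (V : Type) [Fintype V] (G : SimpleGraph V) [DecidableRel G.Adj],
      (∀ u v : V, u ≠ v → ¬ G.Adj u v → Fintype.card V ≤ G.degree u + G.degree v + c) →
      0 < numPerfect G →
      numNearPerfect G ≤ (c + 2) * Fintype.card V ^ (c + 2) * numPerfect G) :=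
  ⟨fun a _ _ _ ha hZ => ratio_indep a ha hZ, fun c _ _ _ _ hd hZ => ratio_ore c hd hZ⟩

end Vale.Agent.Results.P308.BoundedRatio
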